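import Vale.Agent.P085N34.Main

namespace Vale.Agent.Results.P085.AAPredual

open Vale.Agent.P085N34

universe u v

/-- The generator problem, with `W*(S)`, the predual and every reading of separable predual. -/
theorem result {H : Type u} [NormedAddCommGroup H] [InnerProductSpace ℂ H] [CompleteSpace H]
    (M : StarSubalgebra ℂ (H →L[ℂ] H)) (hM : IsVN M) :
    (∀ S ⊆ (M : Set (H →L[ℂ] H)), IsLeast (Over M S) (wstar M S) ∧
      {T : H →WOT[ℂ] H | T.toCLM ∈ wstar M S} =
        closure {T : H →WOT[ℂ] H | T.toCLM ∈ StarAlgebra.adjoin ℂ S}) ∧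
    (∀ a ∈ M, ∀ b ∈ M, IsSelfAdjoint a → IsSelfAdjoint b →
      wstar M {a + Complex.I • b} = wstar M {a, b}) ∧
    (SinglyGenerated M ↔ TwoGenerated M) ∧
    IsPredual.{u, v} M (predual M) ∧
    [SepPredual M, SepRep.{u, v} M, SepNormalRep.{u, v} M, SepDual.{u, v} M].TFAE ∧
    (TopologicalSpace.SeparableSpace H → SepPredual M) ∧
    (SepPredual M → SinglyGenerated M ∧ TwoGenerated M) :=
  ⟨fun _ hS => ⟨isLeast_wstar hM hS, wstar_closure hM hS⟩, fun _ _ _ _ => wstar_pair, singly_iff,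
    isPredual hM, tfae hM, fun _ => sep_of_separable hM,
    fun h => ⟨singly_of_sep hM h, singly_iff.1 (singly_of_sep hM h)⟩⟩

end Vale.Agent.Results.P085.AAPredual
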